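import Vale.Agent.P110.Main

/-!
# P110: a real Littlewood polynomial of length `N` is never closer to flat than `N ^ (-1/2) / 3`
-/

namespace Vale.Agent.Results.P110.DeviationRate

open Finset

/-- For every sign sequence `ε 0, ..., ε (N-1)` the polynomial `P z = ∑_{k<N} ε k z ^ k` has a point
`z` on the unit circle with `| |P z|^2 - N | ≥ sqrt (N - 1)`, and a point on the unit circle with
`| |P z| / sqrt N - 1 | ≥ sqrt (N - 1) / (3 N)`. -/
theorem result (N : ℕ) (hN : 1 ≤ N) (ε : ℕ → ℝ) (hε : ∀ k, ε k = 1 ∨ ε k = -1) :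
    (∃ z : ℂ, ‖z‖ = 1 ∧
      Real.sqrt ((N : ℝ) - 1) ≤ |‖∑ k ∈ range N, (ε k : ℂ) * z ^ k‖ ^ 2 - N|) ∧
    (∃ z : ℂ, ‖z‖ = 1 ∧
      Real.sqrt ((N : ℝ) - 1) / (3 * N)
        ≤ |‖∑ k ∈ range N, (ε k : ℂ) * z ^ k‖ / Real.sqrt N - 1|) := by
  obtain ⟨z, hz, h⟩ := Vale.Agent.P110.main ε hε N hN
  unfold Vale.Agent.P110.pol at h
  refine ⟨⟨z, hz, h⟩, ⟨z, hz, ?_⟩⟩
  set A : ℝ := ‖∑ k ∈ range N, (ε k : ℂ) * z ^ k‖ with hA
  have hA0 : 0 ≤ A := norm_nonneg _
  have hNpos : (0 : ℝ) < N := by exact_mod_cast hN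
  set s : ℝ := Real.sqrt N with hs
  have hspos : 0 < s := Real.sqrt_pos.2 hNpos
  have hs2 : s * s = N := Real.mul_self_sqrt hNpos.le
  set r : ℝ := Real.sqrt ((N : ℝ) - 1) with hr
  have hr0 : 0 ≤ r := Real.sqrt_nonneg _
  have hrs : r ≤ s := Real.sqrt_le_sqrt (by linarith)
  set t : ℝ := A / s with ht
  have ht0 : 0 ≤ t := div_nonneg hA0 hspos.le
  have hAt : A = t * s := by rw [ht]; field_simp
  -- `|t^2 - 1| * N ≥ r`
  have h1 : r ≤ |t ^ 2 - 1| * N := by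
    have : A ^ 2 - N = (t ^ 2 - 1) * N := by rw [hAt, ← hs2]; ring
    rw [this, abs_mul, abs_of_pos hNpos] at h
    exact h
  by_contra hcon
  rw [not_le] at hcon
  set δ : ℝ := r / (3 * N) with hδ
  have hs1 : 1 ≤ s := by
    rw [hs]
    have : (1 : ℝ) ≤ N := by exact_mod_cast hN
    calc (1 : ℝ) = Real.sqrt 1 := Real.sqrt_one.symm
      _ ≤ Real.sqrt N := Real.sqrt_le_sqrt this
  have hδ1 : δ ≤ 1 := by
    rw [hδ, div_le_one (by positivity)]
    nlinarith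
  have hδ0 : 0 ≤ δ := by rw [hδ]; positivity
  have h2 : |t ^ 2 - 1| < 3 * δ ∨ δ = 0 := by
    by_cases hd : δ = 0
    · exact Or.inr hd
    · left
      have hdpos : 0 < δ := lt_of_le_of_ne hδ0 (Ne.symm hd)
      have e : t ^ 2 - 1 = (t - 1) * (t + 1) := by ring
      rw [e, abs_mul]
      have h3 : |t + 1| ≤ 2 + δ := by
        have := abs_lt.1 hcon
        rw [abs_of_nonneg (by linarith)]
        linarith [this.2]
      calc |t - 1| * |t + 1| ≤ |t - 1| * (2 + δ) :=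
            mul_le_mul_of_nonneg_left h3 (abs_nonneg _)
        _ < δ * (2 + δ) := mul_lt_mul_of_pos_right hcon (by linarith)
        _ ≤ 3 * δ := by nlinarith
  rcases h2 with h2 | h2
  · have h4 : |t ^ 2 - 1| * N < 3 * δ * N := mul_lt_mul_of_pos_right h2 hNpos
    have h5 : 3 * δ * N = r := by rw [hδ]; field_simp
    linarith
  · rw [h2] at hcon
    exact absurd hcon (not_lt.2 (abs_nonneg _))

end Vale.Agent.Results.P110.DeviationRate
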