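import Vale.Agent.P110.Kron
import Vale.Agent.P110.Rot
import Vale.Agent.Results.P110.DeviationRate

/-!
# P110: Littlewood polynomials whose sign sequence is a Kronecker product with a short inner factor
are uniformly far from flat.
-/

namespace Vale.Agent.Results.P110.KroneckerFactors

open Finset Vale.Agent.P110

theorem rt_pow_self (m j : ℕ) (hm : 0 < m) : (rt m j) ^ m = 1 := by
  rw [rt_pow, ← pow_mul, Nat.mul_comm j m, pow_mul,
    (Complex.isPrimitiveRoot_exp m hm.ne').pow_eq_one, one_pow]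

theorem result (m r : ℕ) (hm : 2 ≤ m) (q ρ : ℕ → ℝ)
    (hq : ∀ k, q k = 1 ∨ q k = -1) (hρ : ∀ k, ρ k = 1 ∨ ρ k = -1) (a b : ℝ) (ha : 0 < a)
    (hP : ∀ z : ℂ, ‖z‖ = 1 →
      a ≤ ‖∑ k ∈ Finset.range (m * r), ((q (k % m) * ρ (k / m) : ℝ) : ℂ) * z ^ k‖ ^ 2 ∧
      ‖∑ k ∈ Finset.range (m * r), ((q (k % m) * ρ (k / m) : ℝ) : ℂ) * z ^ k‖ ^ 2 ≤ b) :
    1 + Real.sqrt ((m : ℝ) - 1) / m ≤ b / a := by
  have hm0 : 0 < m := by omega
  obtain ⟨⟨z, hz, hdev⟩, -⟩ := DeviationRate.result m (by omega) q hq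
  set Q : ℂ → ℂ := fun z => ∑ i ∈ range m, (q i : ℂ) * z ^ i with hQ
  set R : ℂ → ℂ := fun w => ∑ j ∈ range r, (ρ j : ℂ) * w ^ j with hR
  have hfac : ∀ y : ℂ, ‖∑ k ∈ range (m * r), ((q (k % m) * ρ (k / m) : ℝ) : ℂ) * y ^ k‖ ^ 2
      = ‖Q y‖ ^ 2 * ‖R (y ^ m)‖ ^ 2 := by
    intro y
    rw [kron_eq m r hm0 q ρ y, norm_mul, mul_pow]
  set t : ℝ := ‖R (z ^ m)‖ ^ 2 with ht
  set x : ℝ := ‖Q z‖ ^ 2 with hx
  have hrot : ∀ j, ‖z * rt m j‖ = 1 := by
    intro j; rw [norm_mul, hz, norm_rt, one_mul]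
  have hpow : ∀ j, (z * rt m j) ^ m = z ^ m := by
    intro j; rw [mul_pow, rt_pow_self m j hm0, mul_one]
  have hsum : ∑ j ∈ range m, ‖Q (z * rt m j)‖ ^ 2 * t = (m : ℝ) ^ 2 * t := by
    rw [← sum_mul, rot_parseval m hm0 q hq z hz]
  have hlow : (m : ℝ) * a ≤ (m : ℝ) ^ 2 * t := by
    rw [← hsum]
    calc (m : ℝ) * a = ∑ j ∈ range m, a := by simp
      _ ≤ _ := sum_le_sum (fun j _ => by
        have := (hP _ (hrot j)).1
        rw [hfac, hpow] at this
        exact this)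
  have hhigh : (m : ℝ) ^ 2 * t ≤ (m : ℝ) * b := by
    rw [← hsum]
    calc _ ≤ ∑ j ∈ range m, b := sum_le_sum (fun j _ => by
        have := (hP _ (hrot j)).2
        rw [hfac, hpow] at this
        exact this)
      _ = (m : ℝ) * b := by simp
  have hmpos : (0 : ℝ) < m := by exact_mod_cast hm0
  have h1 : a ≤ m * t := by nlinarith
  have h2 : m * t ≤ b := by nlinarith
  have h3 := (hP z hz).1
  have h4 := (hP z hz).2
  rw [hfac] at h3 h4
  change a ≤ x * t at h3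
  change x * t ≤ b at h4
  set s : ℝ := Real.sqrt ((m : ℝ) - 1) with hs
  have hs0 : 0 ≤ s := Real.sqrt_nonneg _
  have ht0 : 0 ≤ t := by positivity
  change s ≤ |x - m| at hdev
  rw [le_div_iff₀ ha]
  have key : (m + s) * a ≤ m * b := by
    rcases le_abs.mp hdev with h | h
    · -- x ≥ m + s
      have : (m + s) * t ≤ x * t := mul_le_mul_of_nonneg_right (by linarith) ht0
      nlinarith
    · -- x ≤ m - s
      have h5 : x * t ≤ (m - s) * t := mul_le_mul_of_nonneg_right (by linarith) ht0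
      have h6 : a ≤ (m - s) * t := h3.trans h5
      have h7 : 0 < (m : ℝ) - s := by
        by_contra hcon
        have : (m - s) * t ≤ 0 := mul_nonpos_of_nonpos_of_nonneg (by linarith) ht0
        linarith
      -- m a ≤ (m - s) m t ≤ (m - s) b ; (m+s)(m-s) ≤ m^2
      have h8 : m * a ≤ (m - s) * b := by nlinarith
      have hb : 0 < b := lt_of_lt_of_le ha (h1.trans h2)
      nlinarith [mul_nonneg hs0 hs0, mul_pos hmpos hb]
  have : (1 + s / m) * a = (m + s) * a / m := by field_simp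
  rw [this, div_le_iff₀ hmpos]
  linarith

end Vale.Agent.Results.P110.KroneckerFactors
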