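import Vale.Agent.Results.P110.DeviationRate
import Vale.Agent.Results.P110.KroneckerFactors

/-!
P110: conjunction of the general deviation bound and of the uniform bound for Kronecker products.
-/

namespace Vale.Agent.Results.P110.AllParts

open Finset

theorem result :
    (∀ (N : ℕ), 1 ≤ N → ∀ (ε : ℕ → ℝ), (∀ k, ε k = 1 ∨ ε k = -1) →
      (∃ z : ℂ, ‖z‖ = 1 ∧
        Real.sqrt ((N : ℝ) - 1) ≤ |‖∑ k ∈ range N, (ε k : ℂ) * z ^ k‖ ^ 2 - N|) ∧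
      (∃ z : ℂ, ‖z‖ = 1 ∧
        Real.sqrt ((N : ℝ) - 1) / (3 * N)
          ≤ |‖∑ k ∈ range N, (ε k : ℂ) * z ^ k‖ / Real.sqrt N - 1|)) ∧
    (∀ (m r : ℕ), 2 ≤ m → ∀ (q ρ : ℕ → ℝ),
      (∀ k, q k = 1 ∨ q k = -1) → (∀ k, ρ k = 1 ∨ ρ k = -1) → ∀ (a b : ℝ), 0 < a →
      (∀ z : ℂ, ‖z‖ = 1 →
        a ≤ ‖∑ k ∈ range (m * r), ((q (k % m) * ρ (k / m) : ℝ) : ℂ) * z ^ k‖ ^ 2 ∧
        ‖∑ k ∈ range (m * r), ((q (k % m) * ρ (k / m) : ℝ) : ℂ) * z ^ k‖ ^ 2 ≤ b) →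
      1 + Real.sqrt ((m : ℝ) - 1) / m ≤ b / a) :=
  ⟨fun N hN ε hε => DeviationRate.result N hN ε hε,
   fun m r hm q ρ hq hρ a b ha hP => KroneckerFactors.result m r hm q ρ hq hρ a b ha hP⟩

end Vale.Agent.Results.P110.AllParts
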